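import Mathlib

namespace Vale.Agent.Results.P047.UpperBound

open Finset

/-- The sign of coordinate `j` at the point of `{-1,1}^n` encoded by `T`, the set of coordinates
that equal `-1`. -/
def sgn {n : ℕ} (T : Finset (Fin n)) (j : Fin n) : ℝ := if j ∈ T then -1 else 1

/-- The monomial `∏_{j ∈ S} x_j` evaluated at the point encoded by `T`. -/
def chi {n : ℕ} (S T : Finset (Fin n)) : ℝ := ∏ j ∈ S, sgn T j

theorem sgn_sq {n : ℕ} (T : Finset (Fin n)) (j : Fin n) : sgn T j * sgn T j = 1 := by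
  unfold sgn
  split_ifs <;> norm_num

theorem sgn_flip {n : ℕ} (T : Finset (Fin n)) (i j : Fin n) :
    sgn (symmDiff T {i}) j = if j = i then - sgn T j else sgn T j := by
  unfold sgn
  by_cases hji : j = i
  · subst hji
    by_cases hj : j ∈ T <;> simp [Finset.mem_symmDiff, hj]
  · by_cases hj : j ∈ T <;> simp [Finset.mem_symmDiff, hj, hji]

theorem chi_flip {n : ℕ} (S T : Finset (Fin n)) (i : Fin n) :
    chi S (symmDiff T {i}) = if i ∈ S then - chi S T else chi S T := by
  unfold chi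
  by_cases hi : i ∈ S
  · rw [if_pos hi, ← Finset.mul_prod_erase S _ hi,
      ← Finset.mul_prod_erase S (fun j => sgn T j) hi, sgn_flip, if_pos rfl]
    have h : ∏ j ∈ S.erase i, sgn (symmDiff T {i}) j = ∏ j ∈ S.erase i, sgn T j :=
      Finset.prod_congr rfl (fun j hj => by rw [sgn_flip, if_neg (Finset.ne_of_mem_erase hj)])
    rw [h]
    ring
  · rw [if_neg hi]
    refine Finset.prod_congr rfl (fun j hj => ?_)
    have hne : j ≠ i := by
      rintro rfl
      exact hi hj
    rw [sgn_flip, if_neg hne]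

/-- Flipping coordinate `i`, as a permutation of the cube. -/
def flipEquiv {n : ℕ} (i : Fin n) : Finset (Fin n) ≃ Finset (Fin n) :=
  Function.Involutive.toPerm (fun T => symmDiff T {i})
    (fun T => symmDiff_symmDiff_cancel_right {i} T)

theorem sum_flip {n : ℕ} (i : Fin n) (F : Finset (Fin n) → ℝ) :
    ∑ T, F (symmDiff T {i}) = ∑ T, F T :=
  Equiv.sum_comp (flipEquiv i) F

theorem chi_sq {n : ℕ} (S T : Finset (Fin n)) : chi S T * chi S T = 1 := by
  unfold chi
  rw [← Finset.prod_mul_distrib]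
  exact Finset.prod_eq_one (fun j _ => sgn_sq T j)

theorem orth {n : ℕ} (S R : Finset (Fin n)) :
    ∑ T, chi S T * chi R T = if S = R then (2 : ℝ) ^ n else 0 := by
  by_cases h : S = R
  · subst h
    rw [if_pos rfl]
    simp only [chi_sq]
    rw [Finset.sum_const, Finset.card_univ, Fintype.card_finset, Fintype.card_fin]
    simp
  · rw [if_neg h]
    obtain ⟨i, hi⟩ : ∃ i, ¬ (i ∈ S ↔ i ∈ R) := by
      by_contra hcon
      push Not at hcon
      exact h (Finset.ext hcon)
    have key : ∑ T, chi S T * chi R T = - ∑ T, chi S T * chi R T := by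
      conv_lhs => rw [← sum_flip i]
      rw [← Finset.sum_neg_distrib]
      apply Finset.sum_congr rfl
      intro T _
      rw [chi_flip, chi_flip]
      by_cases h1 : i ∈ S <;> by_cases h2 : i ∈ R <;> simp [h1, h2] at hi ⊢
    linarith

theorem O1 {n : ℕ} (b : Finset (Fin n) → ℝ) (R : Finset (Fin n)) :
    ∑ T, (∑ S, b S * chi S T) * chi R T = 2 ^ n * b R := by
  simp_rw [Finset.sum_mul]
  rw [Finset.sum_comm]
  simp_rw [mul_assoc, ← Finset.mul_sum, orth]
  simp [mul_comm]

theorem O2 {n : ℕ} (b : Finset (Fin n) → ℝ) :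
    ∑ T, (∑ S, b S * chi S T) ^ 2 = 2 ^ n * ∑ S, b S ^ 2 := by
  have h1 : ∀ T, (∑ S, b S * chi S T) ^ 2 = ∑ R, b R * ((∑ S, b S * chi S T) * chi R T) := by
    intro T
    rw [sq]
    conv_lhs => rw [Finset.mul_sum]
    apply Finset.sum_congr rfl
    intro R _
    ring
  simp_rw [h1]
  rw [Finset.sum_comm]
  simp_rw [← Finset.mul_sum, O1]
  rw [Finset.mul_sum]
  apply Finset.sum_congr rfl
  intro R _
  ring

theorem symmDiff_insert_aux {n : ℕ} (T0 Q : Finset (Fin n)) (i : Fin n) (hiQ : i ∉ Q) :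
    symmDiff T0 (insert i Q) = symmDiff (symmDiff T0 Q) {i} := by
  ext x
  simp only [Finset.mem_symmDiff, Finset.mem_insert, Finset.mem_singleton]
  by_cases hx : x = i
  · subst hx
    by_cases h1 : x ∈ T0 <;> simp [h1, hiQ]
  · by_cases h1 : x ∈ T0 <;> by_cases h2 : x ∈ Q <;> simp [h1, h2, hx]

theorem gran_aux {n : ℕ} (A : Finset (Fin n)) :
    ∀ (e : ℕ) (h : Finset (Fin n) → ℤ) (b : Finset (Fin n) → ℝ),
      (∀ T, (h T : ℝ) = ∑ S, b S * chi S T) → (∀ S, b S ≠ 0 → (S ∩ A).card ≤ e) →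
      ∀ T0, (2 : ℤ) ^ A.card ∣ 2 ^ e * ∑ Q ∈ A.powerset, h (symmDiff T0 Q) := by
  induction A using Finset.induction_on with
  | empty =>
    intro e h b _ _ T0
    simp
  | insert i A hiA ih =>
    intro e h b hrep hdeg T0
    rw [Finset.sum_powerset_insert hiA, Finset.card_insert_of_notMem hiA]
    have hδrep : ∀ T, (((h T - h (symmDiff T {i}) : ℤ)) : ℝ)
        = ∑ S, (if i ∈ S then 2 * b S else 0) * chi S T := by
      intro T
      rw [Int.cast_sub, hrep T, hrep (symmDiff T {i}), ← Finset.sum_sub_distrib]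
      apply Finset.sum_congr rfl
      intro S _
      rw [chi_flip]
      split_ifs <;> ring
    have hins : ∀ Q ∈ A.powerset, h (symmDiff T0 (insert i Q))
        = h (symmDiff T0 Q) - (h (symmDiff T0 Q) - h (symmDiff (symmDiff T0 Q) {i})) := by
      intro Q hQ
      have hiQ : i ∉ Q := fun hh => hiA (Finset.mem_powerset.mp hQ hh)
      rw [symmDiff_insert_aux T0 Q i hiQ]
      ring
    rw [Finset.sum_congr rfl hins, Finset.sum_sub_distrib]
    have h1 := ih e h b hrep (fun S hS =>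
      le_trans (Finset.card_le_card (Finset.inter_subset_inter_left
        (Finset.subset_insert i A))) (hdeg S hS)) T0
    have h2 : (2 : ℤ) ^ (A.card + 1) ∣
        2 ^ e * ∑ Q ∈ A.powerset, (h (symmDiff T0 Q) - h (symmDiff (symmDiff T0 Q) {i})) := by
      rcases Nat.eq_zero_or_pos e with he | he
      · have hz : ∀ T, h T - h (symmDiff T {i}) = 0 := by
          intro T
          have hr : (((h T - h (symmDiff T {i}) : ℤ)) : ℝ) = 0 := by
            rw [hδrep T]
            apply Finset.sum_eq_zero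
            intro S _
            by_cases hiS : i ∈ S
            · have hb : b S = 0 := by
                by_contra hne
                have h5 := hdeg S hne
                have h6 : i ∈ S ∩ insert i A :=
                  Finset.mem_inter.mpr ⟨hiS, Finset.mem_insert_self i A⟩
                have h7 : 0 < (S ∩ insert i A).card := Finset.card_pos.mpr ⟨i, h6⟩
                omega
              simp [hb]
            · simp [hiS]
          exact_mod_cast hr
        simp [hz]
      · obtain ⟨e', rfl⟩ : ∃ e', e = e' + 1 := ⟨e - 1, by omega⟩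
        have h8 := ih e' (fun T => h T - h (symmDiff T {i}))
          (fun S => if i ∈ S then 2 * b S else 0) hδrep (by
            intro S hS
            by_cases hiS : i ∈ S
            · have hb : b S ≠ 0 := by
                intro hb
                apply hS
                simp [hb]
              have h5 := hdeg S hb
              have hc : (S ∩ insert i A) = insert i (S ∩ A) := by
                rw [Finset.inter_insert_of_mem hiS]
              rw [hc, Finset.card_insert_of_notMem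
                (fun hh => hiA (Finset.mem_inter.mp hh).2)] at h5
              omega
            · exact absurd (by simp [hiS]) hS) T0
        beta_reduce at h8
        have h9 := mul_dvd_mul_right h8 2
        rw [pow_succ, pow_succ]
        have h10 : (2 : ℤ) ^ e' * 2 *
            ∑ Q ∈ A.powerset, (h (symmDiff T0 Q) - h (symmDiff (symmDiff T0 Q) {i}))
            = 2 ^ e' * (∑ Q ∈ A.powerset,
              (h (symmDiff T0 Q) - h (symmDiff (symmDiff T0 Q) {i}))) * 2 := by
          ring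
        rw [h10]
        exact h9
    have h3 : (2 : ℤ) ^ (A.card + 1) ∣ 2 * (2 ^ e * ∑ Q ∈ A.powerset, h (symmDiff T0 Q)) := by
      rw [pow_succ, mul_comm]
      exact mul_dvd_mul_left 2 h1
    have h4 : 2 ^ e * (∑ Q ∈ A.powerset, h (symmDiff T0 Q) +
        (∑ Q ∈ A.powerset, h (symmDiff T0 Q) -
          ∑ Q ∈ A.powerset, (h (symmDiff T0 Q) - h (symmDiff (symmDiff T0 Q) {i}))))
        = 2 * (2 ^ e * ∑ Q ∈ A.powerset, h (symmDiff T0 Q)) -
          2 ^ e * ∑ Q ∈ A.powerset, (h (symmDiff T0 Q) - h (symmDiff (symmDiff T0 Q) {i})) := by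
      ring
    rw [h4]
    exact dvd_sub h3 h2

theorem gran {n : ℕ} (e : ℕ) (h : Finset (Fin n) → ℤ) (b : Finset (Fin n) → ℝ)
    (hrep : ∀ T, (h T : ℝ) = ∑ S, b S * chi S T) (hdeg : ∀ S, e < S.card → b S = 0) :
    ∃ z : ℤ, (2 : ℝ) ^ e * b ∅ = z := by
  have hdvd := gran_aux (Finset.univ : Finset (Fin n)) e h b hrep (by
    intro S hS
    rw [Finset.inter_univ]
    by_contra hcon
    exact hS (hdeg S (by omega))) ∅
  rw [Finset.powerset_univ, Finset.card_univ, Fintype.card_fin] at hdvd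
  obtain ⟨z, hz⟩ := hdvd
  refine ⟨z, ?_⟩
  have hO := O1 b ∅
  have hsum : ((∑ T, h T : ℤ) : ℝ) = 2 ^ n * b ∅ := by
    rw [← hO]
    push_cast
    apply Finset.sum_congr rfl
    intro T _
    rw [hrep T]
    simp [chi]
  have hQ : (∑ Q, h (symmDiff ∅ Q)) = ∑ T, h T := by
    apply Finset.sum_congr rfl
    intro Q _
    congr 1
    ext x
    simp [Finset.mem_symmDiff]
  rw [hQ] at hz
  have hz' : (2 : ℝ) ^ e * (2 ^ n * b ∅) = 2 ^ n * z := by
    rw [← hsum]
    exact_mod_cast hz
  have h2 : (2 : ℝ) ^ n ≠ 0 := by positivity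
  have h3 : (2 : ℝ) ^ n * (2 ^ e * b ∅) = 2 ^ n * z := by linarith
  exact mul_left_cancel₀ h2 h3

theorem chi_singleton {n : ℕ} (i : Fin n) (T : Finset (Fin n)) : chi {i} T = sgn T i := by
  simp [chi]

theorem sgn_cases {n : ℕ} (T : Finset (Fin n)) (i : Fin n) : sgn T i = 1 ∨ sgn T i = -1 := by
  unfold sgn
  split_ifs <;> simp

theorem Dfun_rep {n : ℕ} (f c : Finset (Fin n) → ℝ) (hrep : ∀ T, f T = ∑ S, c S * chi S T)
    (i : Fin n) (T : Finset (Fin n)) :
    (f T - f (symmDiff T {i})) / 2 = ∑ S, (if i ∈ S then c S else 0) * chi S T := by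
  rw [hrep T, hrep (symmDiff T {i}), ← Finset.sum_sub_distrib, Finset.sum_div]
  apply Finset.sum_congr rfl
  intro S _
  rw [chi_flip]
  split_ifs <;> ring

theorem coeff_le_inf {n : ℕ} (f c : Finset (Fin n) → ℝ) (hf : ∀ T, f T = 1 ∨ f T = -1)
    (hrep : ∀ T, f T = ∑ S, c S * chi S T) (i : Fin n) :
    |c {i}| ≤ ∑ S, (if i ∈ S then c S else 0) ^ 2 := by
  have hpos : (0 : ℝ) < 2 ^ n := by positivity
  have h1 : ∑ T, ((f T - f (symmDiff T {i})) / 2) * sgn T i = 2 ^ n * c {i} := by
    have hO := O1 (fun S => if i ∈ S then c S else 0) {i}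
    simp only [Finset.mem_singleton_self, if_true] at hO
    rw [← hO]
    apply Finset.sum_congr rfl
    intro T _
    rw [Dfun_rep f c hrep i T, chi_singleton]
  have h2 : ∑ T, ((f T - f (symmDiff T {i})) / 2) ^ 2
      = 2 ^ n * ∑ S, (if i ∈ S then c S else 0) ^ 2 := by
    rw [← O2]
    apply Finset.sum_congr rfl
    intro T _
    rw [Dfun_rep f c hrep i T]
  have h3 : ∀ T, |((f T - f (symmDiff T {i})) / 2) * sgn T i|
      ≤ ((f T - f (symmDiff T {i})) / 2) ^ 2 := by
    intro T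
    rcases hf T with a | a <;> rcases hf (symmDiff T {i}) with b | b <;>
      rcases sgn_cases T i with s | s <;> rw [a, b, s] <;> norm_num
  have h4 : |2 ^ n * c {i}| ≤ 2 ^ n * ∑ S, (if i ∈ S then c S else 0) ^ 2 := by
    rw [← h1, ← h2]
    exact (Finset.abs_sum_le_sum_abs _ _).trans (Finset.sum_le_sum (fun T _ => h3 T))
  rw [abs_mul, abs_of_pos hpos] at h4
  exact le_of_mul_le_mul_left h4 hpos

theorem parseval_one {n : ℕ} (f c : Finset (Fin n) → ℝ) (hf : ∀ T, f T = 1 ∨ f T = -1)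
    (hrep : ∀ T, f T = ∑ S, c S * chi S T) : ∑ S, c S ^ 2 = 1 := by
  have hpos : (0 : ℝ) < 2 ^ n := by positivity
  have h1 : ∑ T, f T ^ 2 = 2 ^ n := by
    have hsq : ∀ T, f T ^ 2 = 1 := by
      intro T
      rcases hf T with a | a <;> rw [a] <;> norm_num
    simp only [hsq]
    rw [Finset.sum_const, Finset.card_univ, Fintype.card_finset, Fintype.card_fin]
    simp
  have h2 : ∑ T, f T ^ 2 = 2 ^ n * ∑ S, c S ^ 2 := by
    rw [← O2]
    apply Finset.sum_congr rfl
    intro T _
    rw [hrep T]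
  have h3 : (2 : ℝ) ^ n * ∑ S, c S ^ 2 = 2 ^ n * 1 := by rw [← h2, h1, mul_one]
  exact mul_left_cancel₀ hpos.ne' h3

theorem symmDiff_singleton_of_notMem {n : ℕ} (R : Finset (Fin n)) (i : Fin n) (hi : i ∉ R) :
    symmDiff R {i} = insert i R := by
  ext x
  simp only [Finset.mem_symmDiff, Finset.mem_singleton, Finset.mem_insert]
  by_cases hx : x = i
  · subst hx
    simp [hi]
  · simp [hx]

theorem coeff_gran {n d : ℕ} (hd : 1 ≤ d) (f c : Finset (Fin n) → ℝ)
    (hf : ∀ T, f T = 1 ∨ f T = -1) (hrep : ∀ T, f T = ∑ S, c S * chi S T)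
    (hdeg : ∀ S, d < S.card → c S = 0) (i : Fin n) :
    ∃ z : ℤ, (2 : ℝ) ^ (d - 1) * c {i} = z := by
  have hint : ∀ T, ∃ z : ℤ, (z : ℝ) = ((f T - f (symmDiff T {i})) / 2) * sgn T i := by
    intro T
    rcases hf T with a | a <;> rcases hf (symmDiff T {i}) with b | b <;>
      rcases sgn_cases T i with s | s <;> rw [a, b, s] <;>
      first
        | (refine ⟨0, ?_⟩; norm_num; done)
        | (refine ⟨1, ?_⟩; norm_num; done)
        | (refine ⟨-1, ?_⟩; norm_num; done)
  choose h hh using hint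
  have hrep' : ∀ T, (h T : ℝ)
      = ∑ R, (if i ∈ R then 0 else c (symmDiff R {i})) * chi R T := by
    intro T
    rw [hh T, Dfun_rep f c hrep i T, Finset.sum_mul]
    conv_lhs => rw [← sum_flip i]
    apply Finset.sum_congr rfl
    intro R _
    by_cases hiR : i ∈ R
    · have hnm : i ∉ symmDiff R {i} := by simp [Finset.mem_symmDiff, hiR]
      simp [hiR, hnm]
    · have hins := symmDiff_singleton_of_notMem R i hiR
      have hmem : i ∈ symmDiff R {i} := by
        rw [hins]
        exact Finset.mem_insert_self i R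
      rw [if_pos hmem, if_neg hiR, hins]
      unfold chi
      rw [Finset.prod_insert hiR]
      have hsq := sgn_sq T i
      linear_combination (c (insert i R) * ∏ j ∈ R, sgn T j) * hsq
  have hdeg' : ∀ R : Finset (Fin n), d - 1 < R.card →
      (if i ∈ R then 0 else c (symmDiff R {i})) = 0 := by
    intro R hR
    by_cases hiR : i ∈ R
    · rw [if_pos hiR]
    · rw [if_neg hiR]
      apply hdeg
      rw [symmDiff_singleton_of_notMem R i hiR, Finset.card_insert_of_notMem hiR]
      omega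
  obtain ⟨z, hz⟩ := gran (d - 1) h (fun R => if i ∈ R then 0 else c (symmDiff R {i}))
    hrep' hdeg'
  refine ⟨z, ?_⟩
  have he : (if i ∈ (∅ : Finset (Fin n)) then 0 else c (symmDiff ∅ {i})) = c {i} := by
    rw [if_neg (Finset.notMem_empty i)]
    congr 1
  rw [← he]
  exact hz

theorem result (n d : ℕ) (hd : 1 ≤ d) (f c : Finset (Fin n) → ℝ)
    (hf : ∀ T, f T = 1 ∨ f T = -1)
    (hrep : ∀ T, f T = ∑ S, c S * chi S T)
    (hdeg : ∀ S, d < S.card → c S = 0) :
    ((2 : ℝ) ^ (d - 1) + ((d : ℝ) - 1)) * (∑ i : Fin n, |(∑ T, f T * sgn T i) / 2 ^ n|)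
      ≤ (d : ℝ) * 2 ^ (d - 1) := by
  have hpos : (0 : ℝ) < 2 ^ n := by positivity
  have hci : ∀ i : Fin n, (∑ T, f T * sgn T i) / 2 ^ n = c {i} := by
    intro i
    have hO := O1 c {i}
    rw [div_eq_iff hpos.ne', mul_comm, ← hO]
    apply Finset.sum_congr rfl
    intro T _
    rw [← hrep T, chi_singleton]
  simp_rw [hci]
  have hP1 : (1 : ℝ) ≤ 2 ^ (d - 1) := one_le_pow₀ (by norm_num)
  have hd1 : (0 : ℝ) ≤ (d : ℝ) - 1 := by
    have : (1 : ℝ) ≤ d := by exact_mod_cast hd
    linarith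
  have hC := parseval_one f c hf hrep
  have hinf : ∑ i : Fin n, ∑ S, (if i ∈ S then c S else 0) ^ 2
      = ∑ S, (S.card : ℝ) * c S ^ 2 := by
    rw [Finset.sum_comm]
    apply Finset.sum_congr rfl
    intro S _
    have hite : ∀ i : Fin n, (if i ∈ S then c S else 0) ^ 2 = if i ∈ S then c S ^ 2 else 0 := by
      intro i
      split_ifs <;> simp
    simp_rw [hite]
    rw [Finset.sum_ite_mem, Finset.univ_inter, Finset.sum_const, nsmul_eq_mul]
  have h8 : ((d : ℝ) - 1) * ∑ i : Fin n, c {i} ^ 2 ≤ ∑ S, ((d : ℝ) - S.card) * c S ^ 2 := by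
    have hg : ∀ S : Finset (Fin n), 0 ≤ ((d : ℝ) - S.card) * c S ^ 2 := by
      intro S
      by_cases hS : d < S.card
      · rw [hdeg S hS]
        simp
      · have hle : (S.card : ℝ) ≤ d := by exact_mod_cast (not_lt.mp hS)
        exact mul_nonneg (by linarith) (sq_nonneg _)
    have himg : ∑ S ∈ (Finset.univ.image (fun i : Fin n => ({i} : Finset (Fin n)))),
        ((d : ℝ) - S.card) * c S ^ 2 = ∑ i : Fin n, ((d : ℝ) - 1) * c {i} ^ 2 := by
      rw [Finset.sum_image (fun a _ b _ hab => Finset.singleton_injective hab)]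
      apply Finset.sum_congr rfl
      intro i _
      rw [Finset.card_singleton]
      norm_num
    rw [Finset.mul_sum, ← himg]
    exact Finset.sum_le_sum_of_subset_of_nonneg (Finset.subset_univ _) (fun S _ _ => hg S)
  have h9 : ∑ S, (S.card : ℝ) * c S ^ 2 ≤ d - ((d : ℝ) - 1) * ∑ i : Fin n, c {i} ^ 2 := by
    have hsub : ∑ S, ((d : ℝ) - S.card) * c S ^ 2
        = d * ∑ S, c S ^ 2 - ∑ S, (S.card : ℝ) * c S ^ 2 := by
      rw [Finset.mul_sum, ← Finset.sum_sub_distrib]
      apply Finset.sum_congr rfl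
      intro S _
      ring
    rw [hC] at hsub
    linarith
  have hΛ1 : ∑ i : Fin n, |c {i}| ≤ d - ((d : ℝ) - 1) * ∑ i : Fin n, c {i} ^ 2 := by
    calc ∑ i : Fin n, |c {i}| ≤ ∑ i : Fin n, ∑ S, (if i ∈ S then c S else 0) ^ 2 :=
          Finset.sum_le_sum (fun i _ => coeff_le_inf f c hf hrep i)
      _ = ∑ S, (S.card : ℝ) * c S ^ 2 := hinf
      _ ≤ _ := h9
  have hΛ2 : ∑ i : Fin n, |c {i}| ≤ 2 ^ (d - 1) * ∑ i : Fin n, c {i} ^ 2 := by
    rw [Finset.mul_sum]
    apply Finset.sum_le_sum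
    intro i _
    obtain ⟨z, hz⟩ := coeff_gran hd f c hf hrep hdeg i
    have hzz : |(z : ℝ)| ≤ (z : ℝ) ^ 2 := by
      rcases eq_or_ne z 0 with rfl | hz0
      · simp
      · have h1 : (1 : ℝ) ≤ |(z : ℝ)| := by exact_mod_cast Int.one_le_abs hz0
        nlinarith [sq_abs (z : ℝ)]
    have hPpos : (0 : ℝ) < 2 ^ (d - 1) := by linarith
    rw [← hz, abs_mul, abs_of_pos hPpos] at hzz
    have h5 : (2 : ℝ) ^ (d - 1) * |c {i}| ≤ 2 ^ (d - 1) * (2 ^ (d - 1) * c {i} ^ 2) := by
      nlinarith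
    exact le_of_mul_le_mul_left h5 hPpos
  nlinarith [mul_le_mul_of_nonneg_left hΛ1 (by linarith : (0 : ℝ) ≤ 2 ^ (d - 1)),
    mul_le_mul_of_nonneg_left hΛ2 hd1]

end Vale.Agent.Results.P047.UpperBound
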